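import Vale.Agent.N142.Ex

/-!
P142, weighted form: the exact range of exponents for conformal maps onto the disc.
-/

open Complex MeasureTheory Metric Set Filter Topology
open scoped Real ComplexConjugate ENNReal

namespace Vale.Agent.N142

open Vale.Agent.P142 Vale.Agent.P142.H838

noncomputable section

variable {f F φ : ℂ → ℂ} {W : Set ℂ} {s q α a b e : ℝ}

/-- The integral over `W = f(D)` is finite iff the weighted integral over the disc is. -/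
lemma conf_iff (hf : Univ f) (hφ : ∀ z ∈ ball (0 : ℂ) 1, deriv φ (f z) = (deriv f z)⁻¹)
    (hα : 0 ≤ α) :
    ∫⁻ w in f '' ball 0 1, ENNReal.ofReal
      (‖deriv φ w‖ ^ s * infDist w (f '' ball 0 1)ᶜ ^ α * (1 + ‖w‖) ^ (-q)) < ⊤ ↔
    ∫⁻ z in ball (0 : ℂ) 1, ENNReal.ofReal (wt f (2 - s + α) q α z) < ⊤ := by
  rw [change hf]
  have e1 : ∫⁻ z in ball (0 : ℂ) 1, ENNReal.ofReal (‖deriv f z‖ ^ 2) * ENNReal.ofReal
      (‖deriv φ (f z)‖ ^ s * infDist (f z) (f '' ball 0 1)ᶜ ^ α * (1 + ‖f z‖) ^ (-q)) =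
      ∫⁻ z in ball (0 : ℂ) 1, ENNReal.ofReal (‖deriv f z‖ ^ (2 - s) * (1 + ‖f z‖) ^ (-q) *
        infDist (f z) (f '' ball 0 1)ᶜ ^ α) := by
    apply setLIntegral_congr_fun measurableSet_ball
    intro z hz
    have hu : 0 < ‖deriv f z‖ := norm_pos_iff.mpr (univ_deriv_ne_zero hf hz)
    simp only
    rw [← ENNReal.ofReal_mul (by positivity), hφ z hz, norm_inv, Real.inv_rpow hu.le,
      Real.rpow_sub hu, Real.rpow_two]
    congr 1
    ring
  have e2 : ∀ z ∈ ball (0 : ℂ) 1, wt f (2 - s + α) q α z =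
      ‖deriv f z‖ ^ (2 - s) * (1 + ‖f z‖) ^ (-q) * ((1 - ‖z‖) * ‖deriv f z‖) ^ α := by
    intro z hz
    have hu : 0 < ‖deriv f z‖ := norm_pos_iff.mpr (univ_deriv_ne_zero hf hz)
    unfold wt
    rw [Real.rpow_add hu, Real.mul_rpow (one_sub_pos hz).le hu.le]
    ring
  rw [e1]
  constructor
  · refine fin_of_le measurableSet_ball (C := 4 ^ α) (by positivity) (fun z hz => ?_)
    have hz1 := one_sub_pos hz
    have h1 := le_dist hf hz
    have h2 : (1 - ‖z‖) * ‖deriv f z‖ ≤ 4 * infDist (f z) (f '' ball 0 1)ᶜ := by linarith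
    have h3 := Real.rpow_le_rpow (by positivity) h2 hα
    rw [Real.mul_rpow (x := 4) (by norm_num) infDist_nonneg] at h3
    rw [e2 z hz]
    have h4 : 0 ≤ ‖deriv f z‖ ^ (2 - s) * (1 + ‖f z‖) ^ (-q) := by positivity
    exact (mul_le_mul_of_nonneg_left h3 h4).trans (le_of_eq (by ring))
  · refine fin_of_le measurableSet_ball (C := 4 ^ α) (by positivity) (fun z hz => ?_)
    have hz1 := one_sub_pos hz
    have h3 := Real.rpow_le_rpow infDist_nonneg (dist_le hf hz) hα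
    rw [Real.mul_rpow (x := 4) (by norm_num) (by positivity)] at h3
    rw [e2 z hz]
    have h4 : 0 ≤ ‖deriv f z‖ ^ (2 - s) * (1 + ‖f z‖) ^ (-q) := by positivity
    exact (mul_le_mul_of_nonneg_left h3 h4).trans (le_of_eq (by ring))

/-- Sufficiency of the three conditions. -/
theorem conf_finite (hW : IsOpen W) (hφ : DifferentiableOn ℂ φ W) (hb : BijOn φ W (ball 0 1))
    (hα : 0 ≤ α) (h1 : 0 ≤ s) (h2 : s < 4 + 2 * α) (h3 : 4 + 2 * α < 3 * s + 2 * q) :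
    ∫⁻ w in W, ENNReal.ofReal (‖deriv φ w‖ ^ s * infDist w Wᶜ ^ α * (1 + ‖w‖) ^ (-q)) < ⊤ := by
  obtain ⟨f, -, hb', hd⟩ := H521.exists_inv hW hφ hb
  have hf : Univ f := ⟨fun z hz => (hd z hz).differentiableAt.differentiableWithinAt, hb'.injOn⟩
  have hφ' : ∀ z ∈ ball (0 : ℂ) 1, deriv φ (f z) = (deriv f z)⁻¹ := fun z hz => by
    rw [(hd z hz).deriv, inv_inv]
  rw [← hb'.image_eq, conf_iff hf hφ' hα]
  exact disc_finite hf hα (by linarith) (by linarith) (by linarith)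

/-- An example gives a domain with a divergent integral. -/
lemma ex_conf (hF : Ex F b e) (hα : 0 ≤ α) (h : b * (2 - s + α) - e * q + α + 2 ≤ 0) :
    ∃ φ : ℂ → ℂ, IsOpen (F '' ball 0 1) ∧ DifferentiableOn ℂ φ (F '' ball 0 1) ∧
      BijOn φ (F '' ball 0 1) (ball 0 1) ∧ ¬ ∫⁻ w in F '' ball 0 1, ENNReal.ofReal
      (‖deriv φ w‖ ^ s * infDist w (F '' ball 0 1)ᶜ ^ α * (1 + ‖w‖) ^ (-q)) < ⊤ := by
  obtain ⟨φ, h1, h2, h3, -, h5⟩ := H521.exists_phi hF.1.1 hF.1.2.1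
  refine ⟨φ, h1, h2, h3, ?_⟩
  rw [conf_iff (univ_of_classS hF.1) h5 hα, ex_area hF h]
  exact lt_irrefl _

lemma Fa_bounded (ha : 0 < a) (ha2 : a ≤ 2) : Bornology.IsBounded (Fa a '' ball 0 1) := by
  refine (isBounded_closedBall (x := (0 : ℂ)) (r := 5 / a)).subset ?_
  rintro _ ⟨z, hz, rfl⟩
  exact mem_closedBall_zero_iff.mpr (Fa_bdd ha ha2 hz)

/-- Necessity of the first two conditions, already among bounded domains. -/
lemma nec_bdd (hα : 0 ≤ α) (H : ∀ (W : Set ℂ) (φ : ℂ → ℂ), IsOpen W → DifferentiableOn ℂ φ W →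
    BijOn φ W (ball 0 1) → Bornology.IsBounded W → ∫⁻ w in W, ENNReal.ofReal
      (‖deriv φ w‖ ^ s * infDist w Wᶜ ^ α * (1 + ‖w‖) ^ (-q)) < ⊤) : 0 ≤ s ∧ s < 4 + 2 * α := by
  constructor
  · by_contra hs
    push Not at hs
    have h1 : 0 < 2 - s + α := by linarith
    have ha : 0 < -s / (2 - s + α) := div_pos (by linarith) h1
    have ha2 : -s / (2 - s + α) ≤ 2 := by
      rw [div_le_iff₀ h1]
      linarith
    obtain ⟨φ, g1, g2, g3, g4⟩ := ex_conf (s := s) (q := q) (ex_pos ha ha2) hα (by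
      rw [sub_mul, div_mul_cancel₀ _ h1.ne']
      linarith)
    exact g4 (H _ φ g1 g2 g3 (Fa_bounded ha ha2))
  · by_contra hs
    push Not at hs
    obtain ⟨φ, g1, g2, g3, g4⟩ := ex_conf (s := s) (q := q) (ex_pos two_pos le_rfl) hα
      (by linarith)
    exact g4 (H _ φ g1 g2 g3 (Fa_bounded two_pos le_rfl))

/-- **The exact range of exponents.** -/
theorem conf_range (hα : 0 ≤ α) :
    (∀ (W : Set ℂ) (φ : ℂ → ℂ), IsOpen W → DifferentiableOn ℂ φ W → BijOn φ W (ball 0 1) →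
      ∫⁻ w in W, ENNReal.ofReal (‖deriv φ w‖ ^ s * infDist w Wᶜ ^ α * (1 + ‖w‖) ^ (-q)) < ⊤) ↔
    (0 ≤ s ∧ s < 4 + 2 * α ∧ 4 + 2 * α < 3 * s + 2 * q) := by
  refine ⟨fun H => ?_, fun h W φ hW hφ hb => conf_finite hW hφ hb hα h.1 h.2.1 h.2.2⟩
  obtain ⟨h1, h2⟩ := nec_bdd hα (fun W φ hW hφ hb _ => H W φ hW hφ hb)
  refine ⟨h1, h2, ?_⟩
  by_contra hs
  push Not at hs
  obtain ⟨φ, g1, g2, g3, g4⟩ := ex_conf (s := s) (q := q) ex_neg hα (by linarith)
  exact g4 (H _ φ g1 g2 g3)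

/-- **The exact range of exponents for bounded domains.** -/
theorem conf_range_bdd (hα : 0 ≤ α) :
    (∀ (W : Set ℂ) (φ : ℂ → ℂ), IsOpen W → DifferentiableOn ℂ φ W → BijOn φ W (ball 0 1) →
      Bornology.IsBounded W →
      ∫⁻ w in W, ENNReal.ofReal (‖deriv φ w‖ ^ s * infDist w Wᶜ ^ α) < ⊤) ↔
    (0 ≤ s ∧ s < 4 + 2 * α) := by
  constructor
  · intro H
    refine nec_bdd (q := 0) hα (fun W φ hW hφ hb hB => ?_)
    simpa only [neg_zero, Real.rpow_zero, mul_one] using H W φ hW hφ hb hB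
  · rintro ⟨h1, h2⟩ W φ hW hφ hb hB
    obtain ⟨R, hR⟩ := hB.exists_norm_le
    have hq : 0 ≤ 3 + α := by linarith
    refine fin_of_le hW.measurableSet (C := (1 + |R|) ^ (3 + α)) (by positivity) (fun w hw => ?_)
      (conf_finite (q := 3 + α) hW hφ hb hα h1 h2 (by linarith))
    have hv : 0 < 1 + ‖w‖ := by positivity
    have h3 : (1 + ‖w‖) ^ (3 + α) ≤ (1 + |R|) ^ (3 + α) :=
      Real.rpow_le_rpow hv.le (by linarith [hR w hw, le_abs_self R]) hq
    have h4 : 0 < (1 + ‖w‖) ^ (3 + α) := by positivity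
    have h5 : 0 ≤ ‖deriv φ w‖ ^ s * infDist w Wᶜ ^ α :=
      mul_nonneg (by positivity) (Real.rpow_nonneg infDist_nonneg _)
    rw [Real.rpow_neg hv.le]
    calc ‖deriv φ w‖ ^ s * infDist w Wᶜ ^ α = (1 + ‖w‖) ^ (3 + α) *
          (‖deriv φ w‖ ^ s * infDist w Wᶜ ^ α * ((1 + ‖w‖) ^ (3 + α))⁻¹) := by field_simp
      _ ≤ _ := mul_le_mul_of_nonneg_right h3 (by positivity)

end

end Vale.Agent.N142
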