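import Vale.Agent.P142.Defs

open Complex MeasureTheory Metric Set Filter Topology
open scoped Real

namespace Vale.Agent.N142

noncomputable section

/-- The mixed integral mean `(1 / 2π) ∫_{-π}^{π} |f'(r e^{iθ})| ^ p |f(r e^{iθ})| ^ (-q) dθ`. -/
def mixMean (f : ℂ → ℂ) (p q r : ℝ) : ℝ :=
  (2 * π)⁻¹ * ∫ θ in (-π)..π, ‖deriv f (circleMap 0 r θ)‖ ^ p * ‖f (circleMap 0 r θ)‖ ^ (-q)

/-- `β_f(p, q) = limsup_{r → 1-} log (mixMean f p q r) / log (1 / (1 - r))`. -/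
def mixBeta (f : ℂ → ℂ) (p q : ℝ) : EReal :=
  limsup (fun r : ℝ => ((Real.log (mixMean f p q r) / Real.log (1 / (1 - r)) : ℝ) : EReal))
    (𝓝[<] 1)

/-- The generalized integral means spectrum `B(p, q) = sup_{f ∈ S} β_f(p, q)`. -/
def mixBS (p q : ℝ) : EReal := ⨆ f ∈ Vale.Agent.P142.ClassS, mixBeta f p q

end

end Vale.Agent.N142
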