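import Vale.Agent.N142.Fin
import Vale.Agent.P142.H521.Sharp2

/-!
P142, weighted form: the extremal examples `(1 - (1 - z) ^ a) / a`.
-/

open Complex MeasureTheory Metric Set Filter Topology
open scoped Real ComplexConjugate ENNReal

namespace Vale.Agent.N142

open Vale.Agent.P142 Vale.Agent.P142.H838

noncomputable section

variable {f F : ℂ → ℂ} {z w c : ℂ} {t p q α a b e δ : ℝ}

/-- The examples. -/
def Fa (a : ℝ) (z : ℂ) : ℂ := (1 - (1 - z) ^ (a : ℂ)) / a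

lemma re_pos (hz : z ∈ ball (0 : ℂ) 1) : 0 < (1 - z).re := by
  rw [mem_ball_zero_iff] at hz
  have := Complex.re_le_norm z
  simp only [sub_re, one_re]
  linarith

lemma one_sub_ne (hz : z ∈ ball (0 : ℂ) 1) : 1 - z ≠ 0 := fun h => by
  have := re_pos hz
  rw [h] at this
  simp at this

lemma Fa_deriv (ha : a ≠ 0) (hz : z ∈ ball (0 : ℂ) 1) :
    HasDerivAt (Fa a) ((1 - z) ^ ((a - 1 : ℝ) : ℂ)) z := by
  have h1 : HasDerivAt (fun z : ℂ => 1 - z) (-1) z := (hasDerivAt_id' z).const_sub 1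
  have h2 := h1.cpow_const (c := (a : ℂ)) (Or.inl (re_pos hz))
  have h3 := (h2.const_sub 1).div_const (a : ℂ)
  refine h3.congr_deriv ?_
  have : (a : ℂ) ≠ 0 := by exact_mod_cast ha
  push_cast
  field_simp

lemma Fa_mem (ha : a ≠ 0) (ha2 : |a| ≤ 2) : Fa a ∈ ClassS := by
  have hac : (a : ℂ) ≠ 0 := by exact_mod_cast ha
  have h00 : (0 : ℂ) ∈ ball (0 : ℂ) 1 := mem_ball_self one_pos
  have hpi := Real.pi_pos
  have him : ∀ z ∈ ball (0 : ℂ) 1, |(Complex.log (1 - z) * (a : ℂ)).im| < π := by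
    intro z hz
    have h1 : |(1 - z).arg| < π / 2 := Complex.abs_arg_lt_pi_div_two_iff.mpr (Or.inl (re_pos hz))
    rw [Complex.im_mul_ofReal, Complex.log_im, abs_mul]
    have h2 := abs_nonneg (1 - z).arg
    nlinarith
  refine ⟨fun z hz => (Fa_deriv ha hz).differentiableAt.differentiableWithinAt,
    fun z hz w hw h => ?_, ?_, ?_⟩
  · unfold Fa at h
    rw [div_left_inj' hac, sub_right_inj, Complex.cpow_def_of_ne_zero (one_sub_ne hz),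
      Complex.cpow_def_of_ne_zero (one_sub_ne hw)] at h
    have h1 := abs_lt.mp (him z hz)
    have h2 := abs_lt.mp (him w hw)
    have h3 := Complex.exp_inj_of_neg_pi_lt_of_le_pi h1.1 h1.2.le h2.1 h2.2.le h
    have h4 := congrArg Complex.exp (mul_right_cancel₀ hac h3)
    rw [Complex.exp_log (one_sub_ne hz), Complex.exp_log (one_sub_ne hw)] at h4
    linear_combination -h4
  · simp [Fa]
  · rw [(Fa_deriv ha h00).deriv]
    simp

lemma Fa_norm_deriv (ha : a ≠ 0) (hz : z ∈ ball (0 : ℂ) 1) :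
    ‖deriv (Fa a) z‖ = ‖1 - z‖ ^ (a - 1) := by
  rw [(Fa_deriv ha hz).deriv, Complex.norm_cpow_real]

lemma Fa_norm (a : ℝ) (z : ℂ) :
    |1 - ‖1 - z‖ ^ a| / |a| ≤ ‖Fa a z‖ ∧ ‖Fa a z‖ ≤ (1 + ‖1 - z‖ ^ a) / |a| := by
  unfold Fa
  rw [norm_div, Complex.norm_real, Real.norm_eq_abs]
  have h1 := abs_norm_sub_norm_le (1 : ℂ) ((1 - z) ^ (a : ℂ))
  have h2 := norm_sub_le (1 : ℂ) ((1 - z) ^ (a : ℂ))
  rw [norm_one, Complex.norm_cpow_real] at h1 h2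
  constructor <;> gcongr

/-- The behaviour of an example near the boundary point `1`. -/
def Ex (F : ℂ → ℂ) (b e : ℝ) : Prop :=
  F ∈ ClassS ∧ (∀ z ∈ ball (0 : ℂ) 1, ‖deriv F z‖ = ‖1 - z‖ ^ b) ∧
    ∃ K δ₀ : ℝ, 1 ≤ K ∧ 0 < δ₀ ∧ δ₀ ≤ 1 / 2 ∧ ∀ δ, 0 < δ → δ ≤ δ₀ → ∀ z ∈ ball (0 : ℂ) 1,
      δ / 2 ≤ ‖1 - z‖ → ‖1 - z‖ ≤ 2 * δ → δ ^ e / K ≤ ‖F z‖ ∧ 1 + ‖F z‖ ≤ K * δ ^ e

lemma Fa_bdd (ha : 0 < a) (ha2 : a ≤ 2) (hz : z ∈ ball (0 : ℂ) 1) : ‖Fa a z‖ ≤ 5 / a := by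
  refine (Fa_norm a z).2.trans ?_
  rw [abs_of_pos ha]
  have h1 : ‖1 - z‖ ≤ 2 := by
    rw [mem_ball_zero_iff] at hz
    have := norm_sub_le (1 : ℂ) z
    rw [norm_one] at this
    linarith
  have h2 : ‖1 - z‖ ^ a ≤ 4 := by
    calc ‖1 - z‖ ^ a ≤ 2 ^ a := Real.rpow_le_rpow (norm_nonneg _) h1 ha.le
      _ ≤ 2 ^ (2 : ℝ) := Real.rpow_le_rpow_of_exponent_le one_le_two ha2
      _ = 4 := by norm_num
  gcongr
  linarith

lemma ex_pos (ha : 0 < a) (ha2 : a ≤ 2) : Ex (Fa a) (a - 1) 0 := by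
  refine ⟨Fa_mem ha.ne' (by rwa [abs_of_pos ha]), fun z hz => Fa_norm_deriv ha.ne' hz,
    4 + 5 / a, (1 / 2) ^ a⁻¹ / 2, ?_, by positivity, ?_, fun δ hδ hδ0 z hz _ h2 => ?_⟩
  · have : 0 < 5 / a := by positivity
    linarith
  · have : (1 / 2 : ℝ) ^ a⁻¹ ≤ 1 := Real.rpow_le_one (by norm_num) (by norm_num) (by positivity)
    linarith
  · rw [Real.rpow_zero, mul_one]
    refine ⟨le_trans ?_ (Fa_norm a z).1, by linarith [Fa_bdd ha ha2 hz]⟩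
    have h3 : ‖1 - z‖ ^ a ≤ 1 / 2 := by
      have h4 : ‖1 - z‖ ≤ (1 / 2) ^ a⁻¹ := by linarith
      refine (Real.rpow_le_rpow (norm_nonneg _) h4 ha.le).trans (le_of_eq ?_)
      exact Real.rpow_inv_rpow (by norm_num) ha.ne'
    rw [abs_of_pos ha, abs_of_nonneg (by linarith)]
    have h5 : 0 < 5 / a := by positivity
    rw [div_le_div_iff₀ (by linarith) ha]
    nlinarith

lemma ex_neg : Ex (Fa (-2)) (-3) (-2) := by
  refine ⟨Fa_mem (by norm_num) (by norm_num), fun z hz => ?_, 16, 1 / 4, by norm_num, by norm_num,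
    by norm_num, fun δ hδ hδ0 z hz h1 h2 => ?_⟩
  · rw [Fa_norm_deriv (by norm_num) hz]
    norm_num
  · obtain ⟨h3, h4⟩ := Fa_norm (-2) z
    have hx : 0 < ‖1 - z‖ := by linarith
    have e1 : ∀ x : ℝ, 0 < x → x ^ (-2 : ℝ) = (x ^ 2)⁻¹ := fun x hx => by
      rw [Real.rpow_neg hx.le, Real.rpow_two]
    rw [e1 _ hx] at h3 h4
    rw [e1 _ hδ]
    have h5 : (‖1 - z‖ ^ 2)⁻¹ ≤ 4 * (δ ^ 2)⁻¹ := by
      rw [inv_le_iff_one_le_mul₀ (by positivity)]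
      have : δ ^ 2 ≤ 4 * ‖1 - z‖ ^ 2 := by nlinarith
      calc (1 : ℝ) = (δ ^ 2)⁻¹ * δ ^ 2 := by field_simp
        _ ≤ (δ ^ 2)⁻¹ * (4 * ‖1 - z‖ ^ 2) := by gcongr
        _ = _ := by ring
    have h6 : (δ ^ 2)⁻¹ ≤ 4 * (‖1 - z‖ ^ 2)⁻¹ := by
      rw [inv_le_iff_one_le_mul₀ (by positivity)]
      have : ‖1 - z‖ ^ 2 ≤ 4 * δ ^ 2 := by nlinarith
      calc (1 : ℝ) = (‖1 - z‖ ^ 2)⁻¹ * ‖1 - z‖ ^ 2 := by field_simp
        _ ≤ (‖1 - z‖ ^ 2)⁻¹ * (4 * δ ^ 2) := by gcongr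
        _ = _ := by ring
    have h7 : 16 ≤ (δ ^ 2)⁻¹ := by
      rw [le_inv_comm₀ (by norm_num) (by positivity)]
      nlinarith
    have h8 : |(-2 : ℝ)| = 2 := by norm_num
    rw [h8] at h3 h4
    rw [abs_sub_comm, abs_of_nonneg (by linarith)] at h3
    constructor <;> linarith

lemma cmp_pow {K V y : ℝ} (hK : 1 ≤ K) (hy : 0 < y) (h1 : y / K ≤ V) (h2 : V ≤ K * y) (p : ℝ) :
    y ^ p / K ^ |p| ≤ V ^ p := by
  have hK0 : 0 < K := by linarith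
  rcases le_total 0 p with hp | hp
  · rw [abs_of_nonneg hp, ← Real.div_rpow hy.le hK0.le]
    exact Real.rpow_le_rpow (by positivity) h1 hp
  · have hV : 0 < V := lt_of_lt_of_le (by positivity) h1
    rw [abs_of_nonpos hp, Real.rpow_neg hK0.le, div_inv_eq_mul, mul_comm,
      ← Real.mul_rpow hK0.le hy.le]
    exact Real.rpow_le_rpow_of_nonpos hV h2 hp

/-- Lower bound of the mixed integrand near the boundary point `1`. -/
lemma ex_lower (hF : Ex F b e) (p q : ℝ) : ∃ c δ₀ : ℝ, 0 < c ∧ 0 < δ₀ ∧ δ₀ ≤ 1 / 2 ∧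
    ∀ δ, 0 < δ → δ ≤ δ₀ → ∀ z ∈ ball (0 : ℂ) 1, δ / 2 ≤ ‖1 - z‖ → ‖1 - z‖ ≤ 2 * δ →
      ∀ V : ℝ, ‖F z‖ ≤ V → V ≤ 1 + ‖F z‖ → c * δ ^ (b * p - e * q) ≤ ‖deriv F z‖ ^ p * V ^ (-q) := by
  obtain ⟨-, hd, K, δ₀, hK, hδ₀, hδ₁, h⟩ := hF
  have hK0 : 0 < K := by linarith
  refine ⟨(2 ^ |b * p|)⁻¹ * (K ^ |-q|)⁻¹, δ₀, by positivity, hδ₀, hδ₁,
    fun δ hδ hδ' z hz h1 h2 V hV1 hV2 => ?_⟩
  obtain ⟨h3, h4⟩ := h δ hδ hδ' z hz h1 h2
  have h5 := cmp_pow one_le_two hδ h1 h2 (b * p)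
  have h6 := cmp_pow hK (Real.rpow_pos_of_pos hδ e) (h3.trans hV1) (hV2.trans h4) (-q)
  rw [hd z hz, ← Real.rpow_mul (norm_nonneg _)]
  rw [← Real.rpow_mul hδ.le] at h6
  have e1 : δ ^ (b * p - e * q) = δ ^ (b * p) * δ ^ (e * -q) := by
    rw [← Real.rpow_add hδ]
    congr 1
    ring
  rw [e1]
  calc (2 ^ |b * p|)⁻¹ * (K ^ |-q|)⁻¹ * (δ ^ (b * p) * δ ^ (e * -q))
      = (δ ^ (b * p) / 2 ^ |b * p|) * (δ ^ (e * -q) / K ^ |-q|) := by ring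
    _ ≤ _ := mul_le_mul h5 h6 (by positivity) (by positivity)

/-- Divergence of the weighted area integral for an example. -/
theorem ex_area (hF : Ex F b e) (h : b * t - e * q + α + 2 ≤ 0) :
    ∫⁻ z in ball (0 : ℂ) 1, ENNReal.ofReal (wt F t q α z) = ⊤ := by
  obtain ⟨c, δ₀, hc, hδ₀, hδ₁, hl⟩ := ex_lower hF t q
  have hpi := Real.pi_pos
  set d : ℕ → ℝ := fun n => δ₀ / (n + 1) with hd
  have hd0 : ∀ n, 0 < d n := fun n => by positivity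
  have hd1 : ∀ n, d n ≤ δ₀ := fun n => div_le_self hδ₀.le (by linarith [Nat.cast_nonneg (α := ℝ) n])
  set s : ℕ → Set ℂ := fun n => ball ((1 - d n : ℝ) : ℂ) (d n / 2) with hs
  have hgeo : ∀ n, ∀ z ∈ s n, z ∈ ball (0 : ℂ) 1 ∧ d n / 2 ≤ 1 - ‖z‖ ∧ 1 - ‖z‖ ≤ ‖1 - z‖ ∧
      ‖1 - z‖ ≤ 2 * d n := by
    intro n z hz
    have h0 := hd0 n
    have h1 : d n ≤ 1 / 2 := (hd1 n).trans hδ₁
    have h2 : ‖z - ((1 - d n : ℝ) : ℂ)‖ < d n / 2 := by rwa [hs, mem_ball, dist_eq_norm] at hz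
    have h3 : ‖z‖ ≤ ‖z - ((1 - d n : ℝ) : ℂ)‖ + ‖((1 - d n : ℝ) : ℂ)‖ := norm_le_norm_sub_add _ _
    rw [Complex.norm_real, Real.norm_eq_abs, abs_of_nonneg (by linarith)] at h3
    have h4 : ‖1 - z‖ ≤ ‖((d n : ℝ) : ℂ)‖ + ‖z - ((1 - d n : ℝ) : ℂ)‖ := by
      refine le_trans (le_of_eq ?_) (norm_sub_le _ _)
      congr 1
      push_cast
      ring
    rw [Complex.norm_real, Real.norm_eq_abs, abs_of_pos h0] at h4
    have h5 := norm_sub_norm_le (1 : ℂ) z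
    rw [norm_one] at h5
    exact ⟨mem_ball_zero_iff.mpr (by linarith), by linarith, h5, by linarith⟩
  have hsub : ∀ n, s n ⊆ ball (0 : ℂ) 1 := fun n z hz => (hgeo n z hz).1
  have hvol : ∀ n, volume.restrict (ball (0 : ℂ) 1) (s n) = ENNReal.ofReal (π * (d n / 2) ^ 2) := by
    intro n
    rw [Measure.restrict_apply measurableSet_ball, inter_eq_left.mpr (hsub n),
      ball_vol (by linarith [hd0 n])]
  refine H521.top_of_low (s := s) (c := ENNReal.ofReal (c * (2 ^ |α|)⁻¹ * (π / 4))) ?_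
    (ENNReal.ofReal_pos.mpr (by positivity)).ne' (fun n => ?_)
  · simp only [hvol]
    have h1 : Tendsto d atTop (𝓝 0) := tendsto_const_div_atTop_nhds_zero_nat δ₀ |>.comp
      (tendsto_add_atTop_nat 1) |>.congr (fun n => by simp [hd])
    have h2 : Tendsto (fun n => π * (d n / 2) ^ 2) atTop (𝓝 (π * (0 / 2) ^ 2)) :=
      ((h1.div_const 2).pow 2).const_mul π
    have h3 := ENNReal.tendsto_ofReal h2
    simpa using h3
  · have h0 := hd0 n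
    have h1 : d n ≤ 1 / 2 := (hd1 n).trans hδ₁
    have h2 : ∫⁻ _ in s n, ENNReal.ofReal (c * (2 ^ |α|)⁻¹ * d n ^ (b * t - e * q + α))
        ∂(volume.restrict (ball (0 : ℂ) 1)) ≤
        ∫⁻ z in s n, ENNReal.ofReal (wt F t q α z) ∂(volume.restrict (ball (0 : ℂ) 1)) := by
      apply setLIntegral_mono' measurableSet_ball
      intro z hz
      obtain ⟨g1, g2, g3, g4⟩ := hgeo n z hz
      apply ENNReal.ofReal_le_ofReal
      have h3 := hl (d n) h0 (hd1 n) z g1 (g2.trans g3) g4 (1 + ‖F z‖) (by linarith) le_rfl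
      have h4 := cmp_pow one_le_two h0 g2 (g3.trans g4) α
      unfold wt
      rw [Real.rpow_add h0]
      calc c * (2 ^ |α|)⁻¹ * (d n ^ (b * t - e * q) * d n ^ α)
          = (c * d n ^ (b * t - e * q)) * (d n ^ α / 2 ^ |α|) := by ring
        _ ≤ (‖deriv F z‖ ^ t * (1 + ‖F z‖) ^ (-q)) * (1 - ‖z‖) ^ α :=
            mul_le_mul h3 h4 (by positivity) (by positivity)
        _ = _ := by ring
    refine le_trans ?_ h2
    rw [setLIntegral_const, hvol, ← ENNReal.ofReal_mul (by positivity)]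
    apply ENNReal.ofReal_le_ofReal
    have h5 : 1 ≤ d n ^ (b * t - e * q + α + 2) :=
      Real.one_le_rpow_of_pos_of_le_one_of_nonpos h0 (by linarith) h
    rw [Real.rpow_add h0, Real.rpow_two] at h5
    calc c * (2 ^ |α|)⁻¹ * (π / 4) = c * (2 ^ |α|)⁻¹ * (π / 4) * 1 := by ring
      _ ≤ c * (2 ^ |α|)⁻¹ * (π / 4) * (d n ^ (b * t - e * q + α) * d n ^ 2) := by gcongr
      _ = _ := by ring

end

end Vale.Agent.N142
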