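import Vale.Agent.N142.Geo
import Mathlib.Analysis.SpecialFunctions.JapaneseBracket
import Mathlib.Analysis.MeanInequalities

/-!
P142, weighted form: finiteness of the weighted integrals on the disc.
-/

open Complex MeasureTheory Metric Set Filter Topology
open scoped Real ComplexConjugate ENNReal

namespace Vale.Agent.N142

open Vale.Agent.P142 Vale.Agent.P142.H838

noncomputable section

variable {f k : ℂ → ℂ} {z w c : ℂ} {t q α : ℝ}

/-- The weighted integrand on the disc. -/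
def wt (f : ℂ → ℂ) (t q α : ℝ) (z : ℂ) : ℝ :=
  ‖deriv f z‖ ^ t * (1 - ‖z‖) ^ α * (1 + ‖f z‖) ^ (-q)

lemma fin_of_le {S : Set ℂ} (hS : MeasurableSet S) {G H : ℂ → ℝ} {C : ℝ} (hC : 0 ≤ C)
    (h : ∀ z ∈ S, G z ≤ C * H z) (hH : ∫⁻ z in S, ENNReal.ofReal (H z) < ⊤) :
    ∫⁻ z in S, ENNReal.ofReal (G z) < ⊤ := by
  have h1 : ∫⁻ z in S, ENNReal.ofReal (G z) ≤
      ∫⁻ z in S, ENNReal.ofReal C * ENNReal.ofReal (H z) := by
    apply setLIntegral_mono' hS
    intro z hz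
    rw [← ENNReal.ofReal_mul hC]
    exact ENNReal.ofReal_le_ofReal (h z hz)
  rw [lintegral_const_mul' _ _ ENNReal.ofReal_ne_top] at h1
  exact h1.trans_lt (ENNReal.mul_lt_top ENNReal.ofReal_lt_top hH)

lemma fin_add {S : Set ℂ} {G H : ℂ → ℝ} (hm : AEMeasurable G (volume.restrict S))
    (hG : ∫⁻ z in S, ENNReal.ofReal (G z) < ⊤) (hH : ∫⁻ z in S, ENNReal.ofReal (H z) < ⊤) :
    ∫⁻ z in S, ENNReal.ofReal (G z + H z) < ⊤ := by
  have h1 : ∫⁻ z in S, ENNReal.ofReal (G z + H z) ≤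
      ∫⁻ z in S, (ENNReal.ofReal (G z) + ENNReal.ofReal (H z)) :=
    lintegral_mono fun z => ENNReal.ofReal_add_le
  rw [lintegral_add_left' hm.ennreal_ofReal] at h1
  exact h1.trans_lt (ENNReal.add_lt_top.mpr ⟨hG, hH⟩)

lemma wt_aem (hf : Univ f) (t q α : ℝ) :
    AEMeasurable (wt f t q α) (volume.restrict (ball (0 : ℂ) 1)) := by
  have h1 : AEMeasurable f (volume.restrict (ball (0 : ℂ) 1)) :=
    hf.1.continuousOn.aemeasurable measurableSet_ball
  unfold wt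
  refine AEMeasurable.mul (AEMeasurable.mul ?_ ?_) ?_
  · exact ((measurable_deriv f).norm.pow_const _).aemeasurable
  · exact ((measurable_const.sub measurable_norm).pow_const _).aemeasurable
  · exact (h1.norm.const_add 1).pow_const _

/-- The upper corner: an area estimate. -/
lemma corner_up (hf : Univ f) (hα : 0 ≤ α) (hq : 2 + α < q) :
    ∫⁻ z in ball (0 : ℂ) 1, ENNReal.ofReal (wt f (2 + α) q α z) < ⊤ := by
  obtain ⟨c, hc⟩ := exists_omitted hf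
  have hc0 := norm_nonneg c
  have h1 : ∫⁻ z in ball (0 : ℂ) 1,
      ENNReal.ofReal (‖deriv f z‖ ^ 2 * (1 + ‖f z‖) ^ (-(q - α))) < ⊤ := by
    have h2 := change hf (fun w => ENNReal.ofReal ((1 + ‖w‖) ^ (-(q - α))))
    have h3 : ∫⁻ w : ℂ, ENNReal.ofReal ((1 + ‖w‖) ^ (-(q - α))) < ⊤ :=
      finite_integral_one_add_norm (by rw [Complex.finrank_real_complex]; push_cast; linarith)
    have h4 := (setLIntegral_le_lintegral (f '' ball 0 1) _).trans_lt h3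
    rw [h2] at h4
    refine lt_of_eq_of_lt (lintegral_congr fun z => ?_) h4
    rw [ENNReal.ofReal_mul (by positivity)]
  refine fin_of_le measurableSet_ball (C := (4 * (1 + ‖c‖)) ^ α) (by positivity)
    (fun z hz => ?_) h1
  have hu : 0 < ‖deriv f z‖ := norm_pos_iff.mpr (univ_deriv_ne_zero hf hz)
  have hz1 := one_sub_pos hz
  have hf0 := norm_nonneg (f z)
  have hv : 0 < 1 + ‖f z‖ := by positivity
  have h5 : (1 - ‖z‖) * ‖deriv f z‖ ≤ 4 * (1 + ‖c‖) * (1 + ‖f z‖) := by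
    have h6 := far_omitted hf hc hz
    have h7 : ‖f z - c‖ ≤ ‖f z‖ + ‖c‖ := norm_sub_le _ _
    nlinarith
  have h8 := Real.rpow_le_rpow (by positivity) h5 hα
  rw [Real.mul_rpow hz1.le hu.le, Real.mul_rpow (by positivity) hv.le] at h8
  have e1 : (1 + ‖f z‖) ^ (-(q - α)) = (1 + ‖f z‖) ^ α * (1 + ‖f z‖) ^ (-q) := by
    rw [← Real.rpow_add hv]
    congr 1
    ring
  unfold wt
  rw [Real.rpow_add hu, Real.rpow_two, e1]
  have h9 : 0 ≤ ‖deriv f z‖ ^ 2 * (1 + ‖f z‖) ^ (-q) := by positivity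
  calc ‖deriv f z‖ ^ 2 * ‖deriv f z‖ ^ α * (1 - ‖z‖) ^ α * (1 + ‖f z‖) ^ (-q)
      = (1 - ‖z‖) ^ α * ‖deriv f z‖ ^ α * (‖deriv f z‖ ^ 2 * (1 + ‖f z‖) ^ (-q)) := by ring
    _ ≤ (4 * (1 + ‖c‖)) ^ α * (1 + ‖f z‖) ^ α * (‖deriv f z‖ ^ 2 * (1 + ‖f z‖) ^ (-q)) :=
        mul_le_mul_of_nonneg_right h8 h9
    _ = _ := by ring

/-- Brennan's theorem with the weight `(1 - |z|) ^ α`, by distortion. -/
lemma low_plain (hf : Univ f) (hα : 0 ≤ α) (h1 : -2 < t + α) (h2 : t + α < 2 / 3) :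
    ∫⁻ z in ball (0 : ℂ) 1, ENNReal.ofReal (‖deriv f z‖ ^ t * (1 - ‖z‖) ^ α) < ⊤ := by
  obtain ⟨C, hC, h⟩ := distortion hf
  refine fin_of_le measurableSet_ball (C := C ^ α) (by positivity) (fun z hz => ?_)
    (H838.main.1.2 f hf.1 hf.2 (t + α) h1 h2)
  have hu : 0 < ‖deriv f z‖ := norm_pos_iff.mpr (univ_deriv_ne_zero hf hz)
  have h8 := Real.rpow_le_rpow (one_sub_pos hz).le (h z hz) hα
  rw [Real.mul_rpow hC.le hu.le] at h8
  rw [Real.rpow_add hu]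
  have h9 : 0 ≤ ‖deriv f z‖ ^ t := by positivity
  calc ‖deriv f z‖ ^ t * (1 - ‖z‖) ^ α ≤ ‖deriv f z‖ ^ t * (C ^ α * ‖deriv f z‖ ^ α) :=
        mul_le_mul_of_nonneg_left h8 h9
    _ = _ := by ring

/-- The lower corner: Brennan's theorem for `f` and for `1 / (f - c)`. -/
lemma corner_low (hf : Univ f) (hα : 0 ≤ α) (h1 : -2 < t + α) (h2 : t + α ≤ 0) :
    ∫⁻ z in ball (0 : ℂ) 1, ENNReal.ofReal (wt f t (2 * t) α z) < ⊤ := by
  obtain ⟨c, hc⟩ := exists_omitted hf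
  have hc0 := norm_nonneg c
  have hcs : ∀ z ∈ ball (0 : ℂ) 1, f z - c ≠ 0 := fun z hz => sub_ne_zero.mpr (hc z hz)
  set g : ℂ → ℂ := fun z => (f z - c)⁻¹ with hg
  have hgU : Univ g := by
    refine ⟨(hf.1.sub_const c).inv hcs, fun x hx y hy hxy => hf.2 hx hy ?_⟩
    have := inv_injective hxy
    linear_combination this
  have hgd : ∀ z ∈ ball (0 : ℂ) 1, ‖deriv g z‖ = ‖deriv f z‖ / ‖f z - c‖ ^ 2 := by
    intro z hz
    have h3 : HasDerivAt f (deriv f z) z :=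
      (hf.1.differentiableAt (isOpen_ball.mem_nhds hz)).hasDerivAt
    have h4 := ((h3.sub_const c).inv (hcs z hz)).deriv
    have h5 : deriv g z = -deriv f z / (f z - c) ^ 2 := h4
    rw [h5, norm_div, norm_neg, norm_pow]
  have hA := low_plain hf hα h1 (by linarith)
  have hB := low_plain hgU hα h1 (by linarith)
  have hm : AEMeasurable (fun z => ‖deriv f z‖ ^ t * (1 - ‖z‖) ^ α)
      (volume.restrict (ball (0 : ℂ) 1)) :=
    (((measurable_deriv f).norm.pow_const _).mul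
      ((measurable_const.sub measurable_norm).pow_const _)).aemeasurable
  have hm0 : 0 ≤ -(2 * t) := by linarith
  refine fin_of_le measurableSet_ball (C := (2 + ‖c‖) ^ (-(2 * t))) (by positivity)
    (fun z hz => ?_) (fin_add hm hA hB)
  have hu : 0 < ‖deriv f z‖ := norm_pos_iff.mpr (univ_deriv_ne_zero hf hz)
  have hz1 := one_sub_pos hz
  have hx : 0 < ‖f z - c‖ := norm_pos_iff.mpr (hcs z hz)
  have e1 : ‖deriv g z‖ ^ t = ‖deriv f z‖ ^ t * ‖f z - c‖ ^ (-(2 * t)) := by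
    rw [hgd z hz, Real.div_rpow hu.le (by positivity), Real.rpow_neg hx.le, div_eq_mul_inv,
      Real.rpow_mul hx.le, Real.rpow_two]
  have h5 : (1 + ‖f z‖) ^ (-(2 * t)) ≤ (2 + ‖c‖) ^ (-(2 * t)) * (1 + ‖f z - c‖ ^ (-(2 * t))) := by
    have h6 : ‖f z‖ ≤ ‖f z - c‖ + ‖c‖ := norm_le_norm_sub_add _ _
    have hf0 := norm_nonneg (f z)
    have h7 : 0 ≤ ‖f z - c‖ ^ (-(2 * t)) := by positivity
    have h8 : 0 ≤ (2 + ‖c‖) ^ (-(2 * t)) := by positivity
    rcases le_total ‖f z - c‖ 1 with h | h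
    · have h9 := Real.rpow_le_rpow (by positivity) (show 1 + ‖f z‖ ≤ 2 + ‖c‖ by linarith) hm0
      nlinarith
    · have h9 := Real.rpow_le_rpow (by positivity)
        (show 1 + ‖f z‖ ≤ (2 + ‖c‖) * ‖f z - c‖ by nlinarith) hm0
      rw [Real.mul_rpow (by positivity) hx.le] at h9
      nlinarith
  unfold wt
  rw [e1]
  have h9 : 0 ≤ ‖deriv f z‖ ^ t * (1 - ‖z‖) ^ α := by positivity
  calc ‖deriv f z‖ ^ t * (1 - ‖z‖) ^ α * (1 + ‖f z‖) ^ (-(2 * t))
      ≤ ‖deriv f z‖ ^ t * (1 - ‖z‖) ^ α *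
        ((2 + ‖c‖) ^ (-(2 * t)) * (1 + ‖f z - c‖ ^ (-(2 * t)))) :=
        mul_le_mul_of_nonneg_left h5 h9
    _ = _ := by ring

/-- **Finiteness of the weighted integral on the disc.** -/
theorem disc_finite (hf : Univ f) (hα : 0 ≤ α) (h1 : -2 - α < t) (h2 : t ≤ 2 + α)
    (h3 : 3 * t - 2 * q < 2 + α) :
    ∫⁻ z in ball (0 : ℂ) 1, ENNReal.ofReal (wt f t q α z) < ⊤ := by
  set ε : ℝ := min (min (t + 2 + α) ((2 + α - 3 * t + 2 * q) / 2)) 1 with hε
  have hε0 : 0 < ε := lt_min (lt_min (by linarith) (by linarith)) one_pos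
  have hε1 : ε ≤ 1 := min_le_right _ _
  have hε2 : ε ≤ t + 2 + α := (min_le_left _ _).trans (min_le_left _ _)
  have hε3 : ε ≤ (2 + α - 3 * t + 2 * q) / 2 := (min_le_left _ _).trans (min_le_right _ _)
  set t₀ : ℝ := -2 - α + ε with ht₀
  set q₁ : ℝ := 2 + α + ε with hq₁
  have hs0 : 0 < 4 + 2 * α - ε := by linarith
  set θ : ℝ := (2 + α - t) / (4 + 2 * α - ε) with hθ
  have hθ0 : 0 ≤ θ := div_nonneg (by linarith) hs0.le
  have hθ1 : θ ≤ 1 := by
    rw [hθ, div_le_one hs0]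
    linarith
  have hθe : θ * (4 + 2 * α - ε) = 2 + α - t := div_mul_cancel₀ _ hs0.ne'
  have et : t = t₀ * θ + (2 + α) * (1 - θ) := by
    rw [ht₀]
    linear_combination hθe
  have hq' : -q ≤ -(2 * t₀) * θ + -q₁ * (1 - θ) := by
    have : 0 ≤ θ * ε := by positivity
    rw [ht₀, hq₁]
    nlinarith
  have hA := corner_low (t := t₀) hf hα (by linarith) (by linarith)
  have hB := corner_up (q := q₁) hf hα (by linarith)
  refine fin_of_le measurableSet_ball (C := 1) zero_le_one (fun z hz => ?_)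
    (fin_add (wt_aem hf _ _ _) hA hB)
  have hu : 0 < ‖deriv f z‖ := norm_pos_iff.mpr (univ_deriv_ne_zero hf hz)
  have hz1 := one_sub_pos hz
  have hf0 := norm_nonneg (f z)
  have hv : 0 < 1 + ‖f z‖ := by positivity
  have hA0 : 0 ≤ wt f t₀ (2 * t₀) α z := by unfold wt; positivity
  have hB0 : 0 ≤ wt f (2 + α) q₁ α z := by unfold wt; positivity
  have h4 := Real.geom_mean_le_arith_mean2_weighted hθ0 (sub_nonneg.mpr hθ1) hA0 hB0 (by ring)
  have h5 : wt f t q α z ≤ wt f t₀ (2 * t₀) α z ^ θ * wt f (2 + α) q₁ α z ^ (1 - θ) := by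
    unfold wt
    rw [Real.mul_rpow (by positivity) (by positivity), Real.mul_rpow (by positivity) (by positivity),
      Real.mul_rpow (by positivity) (by positivity), Real.mul_rpow (by positivity) (by positivity),
      ← Real.rpow_mul hu.le, ← Real.rpow_mul hu.le, ← Real.rpow_mul hz1.le, ← Real.rpow_mul hz1.le,
      ← Real.rpow_mul hv.le, ← Real.rpow_mul hv.le]
    have e1 : ‖deriv f z‖ ^ t = ‖deriv f z‖ ^ (t₀ * θ) * ‖deriv f z‖ ^ ((2 + α) * (1 - θ)) := by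
      rw [← Real.rpow_add hu, ← et]
    have e2 : (1 - ‖z‖) ^ α = (1 - ‖z‖) ^ (α * θ) * (1 - ‖z‖) ^ (α * (1 - θ)) := by
      rw [← Real.rpow_add hz1]
      congr 1
      ring
    have e3 : (1 + ‖f z‖) ^ (-q) ≤
        (1 + ‖f z‖) ^ (-(2 * t₀) * θ) * (1 + ‖f z‖) ^ (-q₁ * (1 - θ)) := by
      rw [← Real.rpow_add hv]
      exact Real.rpow_le_rpow_of_exponent_le (by linarith) hq'
    calc ‖deriv f z‖ ^ t * (1 - ‖z‖) ^ α * (1 + ‖f z‖) ^ (-q)
        ≤ ‖deriv f z‖ ^ t * (1 - ‖z‖) ^ α *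
          ((1 + ‖f z‖) ^ (-(2 * t₀) * θ) * (1 + ‖f z‖) ^ (-q₁ * (1 - θ))) :=
          mul_le_mul_of_nonneg_left e3 (by positivity)
      _ = _ := by rw [e1]; nth_rewrite 1 [e2]; ring
  nlinarith

end

end Vale.Agent.N142
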