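import Vale.Agent.P142.H838.Main
import Vale.Agent.N142.Defs

/-!
P142, weighted form: distance to the boundary, distortion and Harnack inequalities.
-/

open Complex MeasureTheory Metric Set Filter Topology
open scoped Real ComplexConjugate ENNReal

namespace Vale.Agent.N142

open Vale.Agent.P142 Vale.Agent.P142.H838

noncomputable section

variable {f k : ℂ → ℂ} {z w c : ℂ}

lemma one_sub_pos (hz : z ∈ ball (0 : ℂ) 1) : 0 < 1 - ‖z‖ := by
  rw [mem_ball_zero_iff] at hz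
  linarith

lemma univ_sub (hf : Univ f) (c : ℂ) : Univ fun z => f z - c :=
  ⟨hf.1.sub_const c, fun a ha b hb hab => hf.2 ha hb (by
    simp only at hab
    linear_combination hab)⟩

/-- An omitted value near `f z`. -/
lemma near_omitted (hf : Univ f) (hz : z ∈ ball (0 : ℂ) 1) :
    ∃ c : ℂ, (∀ y ∈ ball (0 : ℂ) 1, f y ≠ c) ∧ ‖f z - c‖ ≤ 4 * ((1 - ‖z‖) * ‖deriv f z‖) := by
  have hS : koebeT f z ∈ ClassS :=
    ⟨(koebeT_univ hf hz).1, (koebeT_univ hf hz).2, koebeT_zero f z, koebeT_deriv hf hz⟩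
  obtain ⟨w, hw2, hw⟩ := exists_omitted_lt hS
  have hu := unit_pos hz
  have hd := univ_deriv_ne_zero hf hz
  have hden : ((1 - ‖z‖ ^ 2 : ℝ) : ℂ) * deriv f z ≠ 0 :=
    mul_ne_zero (by exact_mod_cast hu.ne') hd
  refine ⟨f z + ((1 - ‖z‖ ^ 2 : ℝ) : ℂ) * deriv f z * w, fun y hy hyc => ?_, ?_⟩
  · obtain ⟨ζ, hζ, e⟩ := mob_surj hz hy
    apply hw ζ hζ
    unfold koebeT
    rw [e, hyc, add_sub_cancel_left]
    exact mul_div_cancel_left₀ w hden
  · rw [sub_add_cancel_left, norm_neg, norm_mul, norm_mul, Complex.norm_real, Real.norm_eq_abs,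
      abs_of_pos hu]
    have h1 := one_sub_pos hz
    have h2 : 1 - ‖z‖ ^ 2 ≤ 2 * (1 - ‖z‖) := by nlinarith [norm_nonneg z]
    have h3 := norm_nonneg (deriv f z)
    have h4 := norm_nonneg w
    calc (1 - ‖z‖ ^ 2) * ‖deriv f z‖ * ‖w‖ ≤ (2 * (1 - ‖z‖)) * ‖deriv f z‖ * 2 := by gcongr
      _ = _ := by ring

/-- Koebe's estimate: omitted values are far. -/
lemma far_omitted (hf : Univ f) (hc : ∀ y ∈ ball (0 : ℂ) 1, f y ≠ c) (hz : z ∈ ball (0 : ℂ) 1) :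
    (1 - ‖z‖) * ‖deriv f z‖ ≤ 4 * ‖f z - c‖ := by
  have h := nonvanish_bound (univ_sub hf c) (fun y hy => sub_ne_zero.mpr (hc y hy)) hz
  rw [deriv_sub_const] at h
  refine le_trans (mul_le_mul_of_nonneg_right ?_ (norm_nonneg _)) h
  have := one_sub_pos hz
  nlinarith [norm_nonneg z]

lemma dist_le (hf : Univ f) (hz : z ∈ ball (0 : ℂ) 1) :
    infDist (f z) (f '' ball 0 1)ᶜ ≤ 4 * ((1 - ‖z‖) * ‖deriv f z‖) := by
  obtain ⟨c, hc, h⟩ := near_omitted hf hz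
  have hm : c ∈ (f '' ball 0 1)ᶜ := by
    rintro ⟨y, hy, e⟩
    exact hc y hy e
  refine (infDist_le_dist_of_mem hm).trans ?_
  rwa [dist_eq_norm]

lemma le_dist (hf : Univ f) (hz : z ∈ ball (0 : ℂ) 1) :
    (1 - ‖z‖) * ‖deriv f z‖ / 4 ≤ infDist (f z) (f '' ball 0 1)ᶜ := by
  obtain ⟨c, hc⟩ := exists_omitted hf
  have hne : ((f '' ball 0 1)ᶜ).Nonempty := ⟨c, by
    rintro ⟨y, hy, e⟩
    exact hc y hy e⟩
  rw [le_infDist hne]
  intro d hd
  have h := far_omitted hf (c := d) (fun y hy e => hd ⟨y, hy, e⟩) hz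
  rw [dist_eq_norm]
  linarith

/-- Distortion from below. -/
lemma distortion (hf : Univ f) :
    ∃ C : ℝ, 0 < C ∧ ∀ z ∈ ball (0 : ℂ) 1, 1 - ‖z‖ ≤ C * ‖deriv f z‖ := by
  have h00 : (0 : ℂ) ∈ ball (0 : ℂ) 1 := mem_ball_self one_pos
  have hd := univ_deriv_ne_zero hf h00
  have hm : 0 < ‖deriv f 0‖ := norm_pos_iff.mpr hd
  set F : ℂ → ℂ := fun z => (deriv f 0)⁻¹ * (f z - f 0) with hF
  have hFd : ∀ z ∈ ball (0 : ℂ) 1, deriv F z = (deriv f 0)⁻¹ * deriv f z := by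
    intro z hz
    have h1 : HasDerivAt f (deriv f z) z :=
      (hf.1.differentiableAt (isOpen_ball.mem_nhds hz)).hasDerivAt
    exact ((h1.sub_const (f 0)).const_mul _).deriv
  have hFS : F ∈ ClassS := by
    refine ⟨(hf.1.sub_const _).const_mul _, ?_, ?_, ?_⟩
    · intro a ha b hb hab
      apply hf.2 ha hb
      have := mul_left_cancel₀ (inv_ne_zero hd) hab
      linear_combination this
    · simp only [hF, sub_self, mul_zero]
    · rw [hFd 0 h00, inv_mul_cancel₀ hd]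
  refine ⟨32 * ‖deriv f 0‖⁻¹, by positivity, fun z hz => ?_⟩
  have h := deriv_ge hFS hz
  rw [hFd z hz, norm_mul, norm_inv] at h
  linarith

/-- Harnack's inequality for a zero-free univalent function. -/
lemma harnack (hk : Univ k) (hne : ∀ y ∈ ball (0 : ℂ) 1, k y ≠ 0) (hz : z ∈ ball (0 : ℂ) 1)
    (hw : ‖w - z‖ ≤ (1 - ‖z‖) / 2) : ‖k w‖ ≤ 16 * ‖k z‖ := by
  have h1 := one_sub_pos hz
  set ρ : ℝ := 1 - ‖z‖ with hρ
  have hρc : (ρ : ℂ) ≠ 0 := by exact_mod_cast h1.ne'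
  have hmap : ∀ ζ ∈ ball (0 : ℂ) 1, z + ρ * ζ ∈ ball (0 : ℂ) 1 := by
    intro ζ hζ
    rw [mem_ball_zero_iff] at hζ ⊢
    refine (norm_add_le _ _).trans_lt ?_
    rw [norm_mul, Complex.norm_real, Real.norm_eq_abs, abs_of_pos h1]
    nlinarith
  have hK : Univ fun ζ => k (z + ρ * ζ) := by
    refine ⟨hk.1.comp (by fun_prop) hmap, fun a ha b hb hab => ?_⟩
    have := hk.2 (hmap a ha) (hmap b hb) hab
    exact mul_left_cancel₀ hρc (add_left_cancel this)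
  have hζn : ‖(w - z) / ρ‖ ≤ 1 / 2 := by
    rw [norm_div, Complex.norm_real, Real.norm_eq_abs, abs_of_pos h1, div_le_iff₀ h1]
    linarith
  have hζ : (w - z) / ρ ∈ ball (0 : ℂ) 1 := by
    rw [mem_ball_zero_iff]
    linarith
  have h := growth hK (fun y hy => hne _ (hmap y hy)) hζ
  have e1 : z + ρ * ((w - z) / ρ) = w := by field_simp; ring
  simp only [e1, mul_zero, add_zero] at h
  have h2 : (1 - ‖(w - z) / ρ‖) ^ (-2 : ℝ) ≤ 4 := by
    have h3 : (1 / 2 : ℝ) ≤ 1 - ‖(w - z) / ρ‖ := by linarith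
    refine (Real.rpow_le_rpow_of_nonpos (by norm_num) h3 (by norm_num)).trans (le_of_eq ?_)
    rw [Real.rpow_neg (by norm_num), Real.rpow_two]
    norm_num
  have := norm_nonneg (k z)
  nlinarith

/-- Harnack's inequality for the boundary distance. -/
lemma harnack_deriv (hf : Univ f) (hz : z ∈ ball (0 : ℂ) 1) (hw' : w ∈ ball (0 : ℂ) 1)
    (hw : ‖w - z‖ ≤ (1 - ‖z‖) / 2) :
    (1 - ‖w‖) * ‖deriv f w‖ ≤ 256 * ((1 - ‖z‖) * ‖deriv f z‖) := by
  obtain ⟨c, hc, h⟩ := near_omitted hf hz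
  have h1 := far_omitted hf hc hw'
  have h2 := harnack (univ_sub hf c) (fun y hy => sub_ne_zero.mpr (hc y hy)) hz hw
  linarith

/-- Harnack's inequality for `1 + |f|`. -/
lemma harnack_fun (hf : Univ f) : ∃ C : ℝ, 1 ≤ C ∧ ∀ z ∈ ball (0 : ℂ) 1, ∀ w : ℂ,
    ‖w - z‖ ≤ (1 - ‖z‖) / 2 → 1 + ‖f w‖ ≤ C * (1 + ‖f z‖) := by
  obtain ⟨c, hc⟩ := exists_omitted hf
  have hc0 := norm_nonneg c
  refine ⟨17 + 17 * ‖c‖, by linarith, fun z hz w hw => ?_⟩
  have h2 := harnack (univ_sub hf c) (fun y hy => sub_ne_zero.mpr (hc y hy)) hz hw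
  have h3 : ‖f w‖ ≤ ‖f w - c‖ + ‖c‖ := norm_le_norm_sub_add _ _
  have h4 : ‖f z - c‖ ≤ ‖f z‖ + ‖c‖ := norm_sub_le _ _
  have h5 := norm_nonneg (f z)
  nlinarith

/-- Change of variables. -/
lemma change (hf : Univ f) (G : ℂ → ℝ≥0∞) :
    ∫⁻ w in f '' ball 0 1, G w =
      ∫⁻ z in ball (0 : ℂ) 1, ENNReal.ofReal (‖deriv f z‖ ^ 2) * G (f z) := by
  have h1 := lintegral_image_eq_lintegral_abs_det_fderiv_mul volume (s := ball (0 : ℂ) 1)
    (f := f) (f' := fun z => (ContinuousLinearMap.toSpanSingleton ℂ (deriv f z)).restrictScalars ℝ)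
    measurableSet_ball (fun z hz =>
      (((hf.1.differentiableAt (isOpen_ball.mem_nhds hz)).hasDerivAt.hasFDerivAt).restrictScalars
        ℝ).hasFDerivWithinAt) hf.2 G
  simpa only [abs_det_holo] using h1

end

end Vale.Agent.N142
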