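import Vale.Agent.N142.Conf

/-!
P142, weighted form: from area integrals to mixed integral means.
-/

open Complex MeasureTheory Metric Set Filter Topology
open scoped Real ComplexConjugate ENNReal

namespace Vale.Agent.N142

open Vale.Agent.P142 Vale.Agent.P142.H838

noncomputable section

variable {f F : ℂ → ℂ} {p q α r β b e : ℝ}

lemma limsup_le_of {M : ℝ → ℝ} {C : ℝ} (hC : 0 < C)
    (h : ∀ᶠ r in 𝓝[<] (1 : ℝ), 0 < M r ∧ M r ≤ C * (1 - r) ^ (-β)) :
    limsup (fun r : ℝ => ((Real.log (M r) / Real.log (1 / (1 - r)) : ℝ) : EReal)) (𝓝[<] 1) ≤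
      (β : EReal) := by
  have h1 : Tendsto (fun r : ℝ => ((β + Real.log C / Real.log (1 / (1 - r)) : ℝ) : EReal))
      (𝓝[<] 1) (𝓝 (β : EReal)) := by
    rw [EReal.tendsto_coe]
    have := (tendsto_log_inv.const_div_atTop (Real.log C)).const_add β
    rwa [add_zero] at this
  rw [← h1.limsup_eq]
  refine Filter.limsup_le_limsup ?_
  filter_upwards [h, self_mem_nhdsWithin, tendsto_log_inv.eventually_gt_atTop 0] with r hr hr' hL
  have hs : 0 < 1 - r := sub_pos.mpr hr'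
  rw [EReal.coe_le_coe_iff, div_le_iff₀ hL, add_mul, div_mul_cancel₀ _ hL.ne']
  have hp : 0 < (1 - r) ^ (-β) := Real.rpow_pos_of_pos hs _
  have h4 := Real.log_le_log hr.1 hr.2
  rw [Real.log_mul hC.ne' hp.ne', Real.log_rpow hs] at h4
  refine h4.trans (le_of_eq ?_)
  rw [one_div, Real.log_inv]
  ring

lemma le_limsup_of {M : ℝ → ℝ} {c : ℝ} (hc : 0 < c)
    (h : ∀ᶠ r in 𝓝[<] (1 : ℝ), c * (1 - r) ^ (-β) ≤ M r) :
    (β : EReal) ≤
      limsup (fun r : ℝ => ((Real.log (M r) / Real.log (1 / (1 - r)) : ℝ) : EReal)) (𝓝[<] 1) := by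
  have h1 : Tendsto (fun r : ℝ => ((β + Real.log c / Real.log (1 / (1 - r)) : ℝ) : EReal))
      (𝓝[<] 1) (𝓝 (β : EReal)) := by
    rw [EReal.tendsto_coe]
    have := (tendsto_log_inv.const_div_atTop (Real.log c)).const_add β
    rwa [add_zero] at this
  rw [← h1.limsup_eq]
  refine Filter.limsup_le_limsup ?_
  filter_upwards [h, self_mem_nhdsWithin, tendsto_log_inv.eventually_gt_atTop 0] with r hr hr' hL
  have hs : 0 < 1 - r := sub_pos.mpr hr'
  rw [EReal.coe_le_coe_iff, le_div_iff₀ hL, add_mul, div_mul_cancel₀ _ hL.ne']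
  have hp : 0 < (1 - r) ^ (-β) := Real.rpow_pos_of_pos hs _
  have h4 := Real.log_le_log (by positivity) hr
  rw [Real.log_mul hc.ne' hp.ne', Real.log_rpow hs] at h4
  refine le_trans (le_of_eq ?_) h4
  rw [one_div, Real.log_inv]
  ring

lemma ne_zero_of_S (hF : F ∈ ClassS) {z : ℂ} (hz : z ∈ ball (0 : ℂ) 1) (h0 : z ≠ 0) : F z ≠ 0 :=
  fun h => h0 (hF.2.1 hz (mem_ball_self one_pos) (h.trans hF.2.2.1.symm))

lemma circ_ne (hr0 : 0 < r) (θ : ℝ) : circleMap 0 r θ ≠ 0 := circleMap_ne_center hr0.ne'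

lemma mix_cont (hF : F ∈ ClassS) (p q : ℝ) (hr0 : 0 < r) (hr1 : r < 1) : Continuous fun θ : ℝ =>
    ‖deriv F (circleMap 0 r θ)‖ ^ p * ‖F (circleMap 0 r θ)‖ ^ (-q) := by
  have hU := univ_of_classS hF
  refine (continuous_weight hU.1 (fun z hz => univ_deriv_ne_zero hU hz) hr0.le hr1).mul ?_
  have h1 : Continuous fun θ : ℝ => F (circleMap 0 r θ) :=
    hU.1.continuousOn.comp_continuous (continuous_circleMap 0 r)
      (fun θ => circleMap_mem_unit hr0.le hr1 θ)
  exact h1.norm.rpow_const fun θ => Or.inl (norm_ne_zero_iff.mpr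
    (ne_zero_of_S hF (circleMap_mem_unit hr0.le hr1 θ) (circ_ne hr0 θ)))

lemma mix_pos (hF : F ∈ ClassS) (p q : ℝ) (hr0 : 0 < r) (hr1 : r < 1) : 0 < mixMean F p q r := by
  have hpi := Real.pi_pos
  have hU := univ_of_classS hF
  refine mul_pos (by positivity) (intervalIntegral.intervalIntegral_pos_of_pos
    ((mix_cont hF p q hr0 hr1).intervalIntegrable _ _) (fun θ => ?_) (by linarith))
  have hz := circleMap_mem_unit hr0.le hr1 θ
  exact mul_pos (Real.rpow_pos_of_pos (norm_pos_iff.mpr (univ_deriv_ne_zero hU hz)) _)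
    (Real.rpow_pos_of_pos (norm_pos_iff.mpr (ne_zero_of_S hF hz (circ_ne hr0 θ))) _)

lemma mix_lint (hF : F ∈ ClassS) (p q : ℝ) (hr0 : 0 < r) (hr1 : r < 1) :
    ∫⁻ θ in Ioo (-π) π, ENNReal.ofReal
      (‖deriv F (circleMap 0 r θ)‖ ^ p * ‖F (circleMap 0 r θ)‖ ^ (-q)) =
      ENNReal.ofReal (2 * π * mixMean F p q r) := by
  have hpi := Real.pi_pos
  have hc := mix_cont hF p q hr0 hr1
  have hint := (hc.integrableOn_Icc (μ := volume) (a := -π) (b := π)).mono_set Ioo_subset_Icc_self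
  rw [mixMean, mul_inv_cancel_left₀ (by positivity),
    intervalIntegral.integral_of_le (by linarith only [hpi]), integral_Ioc_eq_integral_Ioo,
    ofReal_integral_eq_lintegral_ofReal hint (Eventually.of_forall fun θ => by positivity)]

/-- A function of the class `S` is bounded away from zero near the unit circle. -/
lemma away (hF : F ∈ ClassS) :
    ∃ M : ℝ, 1 ≤ M ∧ ∀ z ∈ ball (0 : ℂ) 1, 1 / 2 ≤ ‖z‖ → 1 + ‖F z‖ ≤ M * ‖F z‖ := by
  have hsub : ball (0 : ℂ) (1 / 2) ⊆ ball 0 1 := ball_subset_ball (by norm_num)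
  have h1 := H521.isOpen_image_univ hF.1 hF.2.1 isOpen_ball hsub
  have h2 : (0 : ℂ) ∈ F '' ball 0 (1 / 2) := ⟨0, mem_ball_self (by norm_num), hF.2.2.1⟩
  obtain ⟨m, hm, h3⟩ := Metric.isOpen_iff.mp h1 0 h2
  have hm' : 0 < m⁻¹ := by positivity
  refine ⟨1 + m⁻¹, by linarith, fun z hz hz2 => ?_⟩
  have h4 : m ≤ ‖F z‖ := by
    by_contra h
    push Not at h
    obtain ⟨y, hy, e⟩ := h3 (mem_ball_zero_iff.mpr h)
    have := hF.2.1 (hsub hy) hz e
    rw [this, mem_ball_zero_iff] at hy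
    linarith
  have h5 : 1 ≤ m⁻¹ * ‖F z‖ := by rwa [le_inv_mul_iff₀ hm, mul_one]
  linarith

/-- Comparison of the integrands along a radius. -/
lemma radial (hF : F ∈ ClassS) (p q α : ℝ) : ∃ c : ℝ, 0 < c ∧ ∀ r ρ θ : ℝ, 1 / 2 ≤ r → r < ρ →
    ρ < r + (1 - r) / 3 → c * (1 - r) ^ α *
      (‖deriv F (circleMap 0 r θ)‖ ^ p * ‖F (circleMap 0 r θ)‖ ^ (-q)) ≤
      wt F p q α (circleMap 0 ρ θ) := by
  have hU := univ_of_classS hF
  obtain ⟨M, hM, h1⟩ := away hF
  obtain ⟨C, hC, h2⟩ := harnack_fun hU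
  have hK : 1 ≤ C * M := one_le_mul_of_one_le_of_one_le hC hM
  refine ⟨(512 ^ |p|)⁻¹ * (2 ^ |α|)⁻¹ * ((C * M) ^ |-q|)⁻¹, by positivity,
    fun r ρ θ hr hρ1 hρ2 => ?_⟩
  have hr1 : r < 1 := by linarith
  have hρ3 : ρ < 1 := by linarith
  have hr0 : 0 < r := by linarith
  have hρ0 : 0 < ρ := by linarith
  have hz := circleMap_mem_unit hr0.le hr1 θ
  have hw := circleMap_mem_unit hρ0.le hρ3 θ
  set z := circleMap 0 r θ with hz'
  set w := circleMap 0 ρ θ with hw'
  have nz : ‖z‖ = r := by rw [hz', norm_circleMap_zero, abs_of_pos hr0]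
  have nw : ‖w‖ = ρ := by rw [hw', norm_circleMap_zero, abs_of_pos hρ0]
  have nwz : ‖w - z‖ = ρ - r := by
    have : w - z = circleMap 0 (ρ - r) θ := by
      simp only [hz', hw', circleMap_zero]
      push_cast
      ring
    rw [this, norm_circleMap_zero, abs_of_pos (by linarith)]
  have a1 : ‖w - z‖ ≤ (1 - ‖z‖) / 2 := by rw [nwz, nz]; linarith
  have a2 : ‖z - w‖ ≤ (1 - ‖w‖) / 2 := by rw [norm_sub_rev, nwz, nw]; linarith
  have uz : 0 < ‖deriv F z‖ := norm_pos_iff.mpr (univ_deriv_ne_zero hU hz)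
  have uw : 0 < ‖deriv F w‖ := norm_pos_iff.mpr (univ_deriv_ne_zero hU hw)
  have fz : 0 < ‖F z‖ := norm_pos_iff.mpr (ne_zero_of_S hF hz (circ_ne hr0 θ))
  have fw := norm_nonneg (F w)
  have b1 := harnack_deriv hU hz hw a1
  have b2 := harnack_deriv hU hw hz a2
  rw [nz, nw] at b1 b2
  have hs : 0 < 1 - r := by linarith
  have c1 : ‖deriv F z‖ / 512 ≤ ‖deriv F w‖ := by
    have : (1 - r) * ‖deriv F z‖ ≤ (1 - r) * (512 * ‖deriv F w‖) := by nlinarith
    have := le_of_mul_le_mul_left this hs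
    linarith
  have c2 : ‖deriv F w‖ ≤ 512 * ‖deriv F z‖ := by
    have : (1 - r) * ‖deriv F w‖ ≤ (1 - r) * (512 * ‖deriv F z‖) := by nlinarith
    exact le_of_mul_le_mul_left this hs
  have c3 : ‖F z‖ / (C * M) ≤ 1 + ‖F w‖ := by
    have := h2 w hw z a2
    rw [div_le_iff₀ (by positivity)]
    have h5 : C * (1 + ‖F w‖) * 1 ≤ C * (1 + ‖F w‖) * M := by gcongr
    linarith
  have c4 : 1 + ‖F w‖ ≤ C * M * ‖F z‖ := by
    refine (h2 z hz w a1).trans ?_
    rw [mul_assoc]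
    exact mul_le_mul_of_nonneg_left (h1 z hz (by rwa [nz])) (by linarith)
  have d1 := cmp_pow (by norm_num) uz c1 c2 p
  have d2 := cmp_pow one_le_two hs (show (1 - r) / 2 ≤ 1 - ρ by linarith)
    (show 1 - ρ ≤ 2 * (1 - r) by linarith) α
  have d3 := cmp_pow hK fz c3 c4 (-q)
  unfold wt
  rw [nw]
  have hρ4 : 0 < 1 - ρ := by linarith
  calc (512 ^ |p|)⁻¹ * (2 ^ |α|)⁻¹ * ((C * M) ^ |-q|)⁻¹ * (1 - r) ^ α *
        (‖deriv F z‖ ^ p * ‖F z‖ ^ (-q))
      = ‖deriv F z‖ ^ p / 512 ^ |p| * ((1 - r) ^ α / 2 ^ |α|) *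
        (‖F z‖ ^ (-q) / (C * M) ^ |-q|) := by ring
    _ ≤ _ := by gcongr

/-- A finite weighted area integral bounds the growth of the means. -/
theorem beta_le_of_area (hF : F ∈ ClassS)
    (h : ∫⁻ z in ball (0 : ℂ) 1, ENNReal.ofReal (wt F p q α z) < ⊤) :
    mixBeta F p q ≤ ((1 + α : ℝ) : EReal) := by
  classical
  have hpi := Real.pi_pos
  obtain ⟨c, hc, hrad⟩ := radial hF p q α
  set G : ℂ → ℂ := (ball (0 : ℂ) 1).piecewise F 0 with hG
  have hGm : Measurable G :=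
    hF.1.continuousOn.measurable_piecewise continuousOn_const measurableSet_ball
  set H : ℂ → ℝ≥0∞ := fun z =>
    ENNReal.ofReal (‖deriv F z‖ ^ p * (1 - ‖z‖) ^ α * (1 + ‖G z‖) ^ (-q)) with hH
  have hHm : Measurable H :=
    ((((measurable_deriv F).norm.pow_const _).mul
      ((measurable_const.sub measurable_norm).pow_const _)).mul
      ((hGm.norm.const_add 1).pow_const _)).ennreal_ofReal
  have hHe : ∀ z ∈ ball (0 : ℂ) 1, H z = ENNReal.ofReal (wt F p q α z) := by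
    intro z hz
    simp only [hH, hG, piecewise_eq_of_mem _ _ _ hz, wt]
  rw [← setLIntegral_congr_fun measurableSet_ball hHe, FF.lintegral_ball_polar hHm] at h
  set A := ∫⁻ ρ in Ioo (0 : ℝ) 1, ENNReal.ofReal ρ * ∫⁻ θ in Ioo (-π) π, H (circleMap 0 ρ θ)
    with hA
  have hA0 : 0 ≤ A.toReal := ENNReal.toReal_nonneg
  refine limsup_le_of (C := (A.toReal + 1) * 3 / (π * c)) (by positivity) ?_
  filter_upwards [Ico_mem_nhdsLT (show (1 / 2 : ℝ) < 1 by norm_num)] with r hr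
  have hr0 : 0 < r := by linarith [hr.1]
  have hs : 0 < 1 - r := by linarith [hr.2]
  have hM := mix_pos hF p q hr0 hr.2
  refine ⟨hM, ?_⟩
  have hsα : 0 < (1 - r) ^ α := Real.rpow_pos_of_pos hs _
  have h1 : ∫⁻ _ in Ioo r (r + (1 - r) / 3),
      ENNReal.ofReal (1 / 2 * (c * (1 - r) ^ α * (2 * π * mixMean F p q r))) ≤ A := by
    refine le_trans ?_ (lintegral_mono_set (Ioo_subset_Ioo hr0.le
      (show r + (1 - r) / 3 ≤ 1 by linarith)))
    apply setLIntegral_mono' measurableSet_Ioo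
    intro ρ hρ
    rw [ENNReal.ofReal_mul (by norm_num), ENNReal.ofReal_mul (by positivity),
      ← mix_lint hF p q hr0 hr.2, ← lintegral_const_mul' _ _ ENNReal.ofReal_ne_top]
    refine mul_le_mul' (ENNReal.ofReal_le_ofReal (by linarith [hρ.1, hr.1]))
      (lintegral_mono fun θ => ?_)
    rw [hHe _ (circleMap_mem_unit (by linarith [hρ.1]) (by linarith [hρ.2]) θ),
      ← ENNReal.ofReal_mul (by positivity)]
    exact ENNReal.ofReal_le_ofReal (hrad r ρ θ hr.1 hρ.1 hρ.2)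
  rw [setLIntegral_const, Real.volume_Ioo, ← ENNReal.ofReal_mul (by positivity),
    ENNReal.ofReal_le_iff_le_toReal h.ne] at h1
  rw [Real.rpow_neg hs.le, Real.rpow_add hs, Real.rpow_one, ← div_eq_mul_inv,
    le_div_iff₀ (by positivity), le_div_iff₀ (by positivity)]
  nlinarith

/-- Lower bound of the growth of the means for an example. -/
theorem ex_mean (hF : Ex F b e) (p q : ℝ) :
    ((-(b * p - e * q) - 1 : ℝ) : EReal) ≤ mixBeta F p q := by
  obtain ⟨c, δ₀, hc, hδ₀, hδ₁, hl⟩ := ex_lower hF p q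
  have hpi := Real.two_le_pi
  refine le_limsup_of (c := (2 * π)⁻¹ * (2 * c)) (by positivity) ?_
  filter_upwards [Ico_mem_nhdsLT (show 1 - δ₀ < 1 by linarith)] with r hr
  have hr2 : 1 / 2 ≤ r := by linarith [hr.1]
  have hr0 : 0 < r := by linarith
  have hs : 0 < 1 - r := by linarith [hr.2]
  have hc' := mix_cont hF.1 p q hr0 hr.2
  have h1 : ∫ _θ in (-(1 - r))..(1 - r), c * (1 - r) ^ (b * p - e * q)
      ≤ ∫ θ in (-(1 - r))..(1 - r),
        ‖deriv F (circleMap 0 r θ)‖ ^ p * ‖F (circleMap 0 r θ)‖ ^ (-q) := by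
    refine intervalIntegral.integral_mono_on (by linarith) intervalIntegrable_const
      (hc'.intervalIntegrable _ _) (fun θ hθ => ?_)
    have hz := circleMap_mem_unit hr0.le hr.2 θ
    refine hl (1 - r) hs (by linarith [hr.1]) _ hz ?_ ?_ _ le_rfl (by linarith)
    · have h5 := norm_sub_norm_le (1 : ℂ) (circleMap 0 r θ)
      rw [norm_one, norm_circleMap_zero, abs_of_pos hr0] at h5
      linarith
    · have e : 1 - circleMap 0 r θ = ((1 - r : ℝ) : ℂ) - (r : ℂ) * (exp (I * θ) - 1) := by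
        simp only [circleMap, zero_add]
        rw [mul_comm I (θ : ℂ)]
        push_cast
        ring
      rw [e]
      refine (norm_sub_le _ _).trans ?_
      rw [norm_mul, norm_real, norm_real, Real.norm_eq_abs, Real.norm_eq_abs, abs_of_pos hs,
        abs_of_pos hr0]
      have h2 := Real.norm_exp_I_mul_ofReal_sub_one_le (x := θ)
      rw [Real.norm_eq_abs] at h2
      have h3 := abs_le.2 hθ
      nlinarith [hr.2, norm_nonneg (exp (I * θ) - 1)]
  have h2 : ∫ θ in (-(1 - r))..(1 - r),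
      ‖deriv F (circleMap 0 r θ)‖ ^ p * ‖F (circleMap 0 r θ)‖ ^ (-q)
      ≤ ∫ θ in (-π)..π, ‖deriv F (circleMap 0 r θ)‖ ^ p * ‖F (circleMap 0 r θ)‖ ^ (-q) :=
    intervalIntegral.integral_mono_interval (by linarith) (by linarith) (by linarith)
      (Filter.Eventually.of_forall fun θ => by positivity) (hc'.intervalIntegrable _ _)
  rw [intervalIntegral.integral_const, smul_eq_mul] at h1
  have h4 := h1.trans h2
  unfold mixMean
  rw [mul_assoc]
  refine mul_le_mul_of_nonneg_left (le_trans (le_of_eq ?_) h4) (by positivity)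
  have e1 : -(-(b * p - e * q) - 1) = b * p - e * q + 1 := by ring
  rw [e1, Real.rpow_add_one hs.ne']
  ring

theorem mixBS_le (hβ : 1 ≤ β) (h1 : |p| - 1 ≤ β) (h2 : 3 * p - 2 * q - 1 ≤ β) :
    mixBS p q ≤ (β : EReal) := by
  refine iSup₂_le fun F hF => ?_
  rw [← EReal.le_of_forall_lt_iff_le]
  intro x hx
  rw [EReal.coe_lt_coe_iff] at hx
  have h3 := abs_le.mp (show |p| ≤ β + 1 by linarith)
  have h4 := beta_le_of_area (p := p) (q := q) (α := x - 1) hF
    (disc_finite (univ_of_classS hF) (by linarith) (by linarith) (by linarith) (by linarith))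
  rwa [add_sub_cancel] at h4

theorem le_mixBS (p q : ℝ) :
    ((max (|p| - 1) (3 * p - 2 * q - 1) : ℝ) : EReal) ≤ mixBS p q := by
  have key : ∀ {F : ℂ → ℂ} {b e : ℝ}, Ex F b e →
      ((-(b * p - e * q) - 1 : ℝ) : EReal) ≤ mixBS p q := fun {F b e} hF =>
    (ex_mean hF p q).trans (le_iSup₂ (f := fun f (_ : f ∈ ClassS) => mixBeta f p q) F hF.1)
  rcases max_choice (|p| - 1) (3 * p - 2 * q - 1) with h | h
  · rw [h]
    rcases le_or_gt p 0 with hp | hp
    · refine le_trans (le_of_eq ?_) (key (ex_pos two_pos le_rfl))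
      rw [abs_of_nonpos hp]
      congr 1
      ring
    · rw [abs_of_pos hp, ← EReal.ge_of_forall_gt_iff_ge]
      intro x hx
      rw [EReal.coe_lt_coe_iff] at hx
      have ha : 0 < min 2 ((p - 1 - x) / p) := lt_min two_pos (div_pos (by linarith) hp)
      refine le_trans ?_ (key (ex_pos ha (min_le_left _ _)))
      rw [EReal.coe_le_coe_iff]
      have h5 : min 2 ((p - 1 - x) / p) * p ≤ p - 1 - x := by
        rw [← le_div_iff₀ hp]
        exact min_le_right _ _
      nlinarith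
  · rw [h]
    refine le_trans (le_of_eq ?_) (key ex_neg)
    congr 1
    ring

/-- **The generalized spectrum, wherever it is at least one.** -/
theorem mixBS_eq (h : 2 ≤ |p| ∨ 2 ≤ 3 * p - 2 * q) :
    mixBS p q = ((max (|p| - 1) (3 * p - 2 * q - 1) : ℝ) : EReal) := by
  refine le_antisymm (mixBS_le ?_ (le_max_left _ _) (le_max_right _ _)) (le_mixBS p q)
  rcases h with h | h
  · exact le_max_of_le_left (by linarith)
  · exact le_max_of_le_right (by linarith)

end

end Vale.Agent.N142
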